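import Vale.Agent.P106.R.H610.Stab
import Vale.Agent.P106.R.H286.RGbox2
import Vale.Agent.P106.R.C.Flag2

/-!
# P106 / R, copy of P122 / H655 : normalised quantities of a sequence of valid structures are `O(L)`

* `X_OL` : the number of starting cells
* `fl_OL` : the number of flags
* `card_D_le_fl` : the number of reached nodes is at most the number of flags
* `ld_OL'` : the logarithm of the maximal density
-/

set_option autoImplicit false

namespace Vale.Agent.P106.R.H655

open Filter Topology Finset Vale.Agent.P127 Vale.Agent.P127.Stk Vale.Agent.P127.U Vale.Agent.P127.U.Sys Vale.Agent.P106.R.C2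
  Vale.Agent.P106.R.E Vale.Agent.P106.R.H610 Vale.Agent.P106.R.H286

variable {K : ℕ} {Z : CS K}

/-- the number of starting cells is `2 ^ O(L)` -/
theorem X_OL (W : VS Z) : Z.OL fun i => Real.logb 2 ((W.V i).X.card) := by
  have hC0 : (0 : ℝ) ≤ Z.C := le_trans zero_le_one Z.C1
  have hwc := wc_nonneg (C := Z.C) (K := K) hC0
  have hA : (0 : ℝ) < (2 * (Z.C + 3 * K) + 1) ^ 2 * (2 * wc Z.C K + 1) := by positivity
  refine CS.OL.of_le (c := 9) (Eventually.of_forall fun i => ?_) ?_
  · refine Real.logb_nonneg (by norm_num) ?_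
    exact_mod_cast (W.ne i).card_pos
  · filter_upwards [CS.const_le (Z := Z) (Real.logb 2 ((2 * (Z.C + 3 * K) + 1) ^ 2 * (2 * wc Z.C K + 1))) one_pos] with i h1
    have hX : (0 : ℝ) < (W.V i).X.card := by exact_mod_cast (W.ne i).card_pos
    have h2 := Real.logb_le_logb_of_le (b := 2) (by norm_num) hX ((W.ok i).card_X_bd hC0)
    rw [Real.logb_mul hA.ne' (by positivity), Real.logb_pow 2 2 (8 * K * Z.n i),
      Real.logb_self_eq_one (by norm_num)] at h2
    have h3 : ((8 * K * Z.n i : ℕ) : ℝ) = 8 * Z.L i := by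
      rw [Z.L_eq]
      push_cast
      ring
    rw [h3] at h2
    linarith

/-- the number of flags is `2 ^ O(L)` -/
theorem fl_OL (W : VS Z) : Z.OL fun i => Real.logb 2 ((W.fl i).card) := by
  have h1 : Z.OL fun i => Real.logb 2 ((W.V i).X.card) + ((∑ c ∈ range K, W.J i c : ℕ) : ℝ) + (K : ℝ) :=
    ((X_OL W).add W.sumJ_OL).add (CS.OL.const (Z := Z) (K : ℝ))
  obtain ⟨C, hC⟩ := h1
  refine CS.OL.of_le (c := C) (Eventually.of_forall fun i => ?_) ?_
  · refine Real.logb_nonneg (by norm_num) ?_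
    exact_mod_cast (W.fl_ne i).card_pos
  · filter_upwards [hC, Z.L_pos] with i h2 h3
    have h4 := (abs_le.1 h2).2
    rw [div_le_iff₀ h3] at h4
    refine le_trans ?_ h4
    have h5 := (card_Fg (W.ok i) (i := K) le_rfl).2
    have e1 : ∑ j ∈ range K, (W.J i j + 1) = ∑ j ∈ range K, W.J i j + K := by
      rw [Finset.sum_add_distrib]
      simp
    rw [e1] at h5
    have hX : (0 : ℝ) < (W.V i).X.card := by exact_mod_cast (W.ne i).card_pos
    have hf : (0 : ℝ) < (W.fl i).card := by exact_mod_cast (W.fl_ne i).card_pos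
    have h6 : ((W.fl i).card : ℝ) ≤ (W.V i).X.card * 2 ^ (∑ j ∈ range K, W.J i j + K) := by exact_mod_cast h5
    have h7 := Real.logb_le_logb_of_le (b := 2) (by norm_num) hf h6
    refine h7.trans (le_of_eq ?_)
    rw [Real.logb_mul hX.ne' (by positivity), Real.logb_pow, Real.logb_self_eq_one (by norm_num)]
    push_cast
    ring

/-- the number of reached nodes is at most the number of flags -/
theorem card_D_le_fl (W : VS Z) {c : ℕ} (hc : c ≤ K) (i : ℕ) :
    ((W.V i).D (Z.F i).s (Z.n i) c).card ≤ (W.fl i).card := by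
  classical
  refine le_trans (Finset.card_le_card (t := (W.fl i).image (Vale.Agent.P106.R.H610.nd (Z.F i).s (Z.n i) K c)) fun S hS => ?_)
    Finset.card_image_le
  obtain ⟨ω, hω⟩ := exists_flag W hc i (S := S) hS
  exact Finset.mem_image.2 ⟨ω.1, ω.2, hω⟩

/-- the number of reached nodes is `2 ^ O(L)` -/
theorem D_OL (W : VS Z) {c : ℕ} (hc : c ≤ K) :
    Z.OL fun i => Real.logb 2 (((W.V i).D (Z.F i).s (Z.n i) c).card) := by
  obtain ⟨C, hC⟩ := fl_OL W
  refine CS.OL.of_le (c := C) (Eventually.of_forall fun i => ?_) ?_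
  · refine Real.logb_nonneg (by norm_num) ?_
    exact_mod_cast (Dn_ne W hc i).card_pos
  · filter_upwards [hC, Z.L_pos] with i h2 h3
    have h4 := (abs_le.1 h2).2
    rw [div_le_iff₀ h3] at h4
    refine le_trans ?_ h4
    have h5 : (0 : ℝ) < ((W.V i).D (Z.F i).s (Z.n i) c).card := by exact_mod_cast (Dn_ne W hc i).card_pos
    exact Real.logb_le_logb_of_le (by norm_num) h5 (by exact_mod_cast card_D_le_fl W hc i)

/-- the logarithm of the maximal density is `O(L)` -/
theorem ld_OL' (W : VS Z) {c : ℕ} (hc : c ≤ K) : Z.OL (ld W c) := by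
  obtain ⟨C, hC⟩ := D_OL W hc
  refine CS.OL.of_le (c := C) (Eventually.of_forall fun i => ld_nonneg W hc i) ?_
  filter_upwards [hC, Z.L_pos] with i h2 h3
  have h4 := (abs_le.1 h2).2
  rw [div_le_iff₀ h3] at h4
  exact (lmx_le_card _ _ _ (Dn_ne W hc i)).trans h4

end Vale.Agent.P106.R.H655
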